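import Vale.Agent.P366.H222.CF.Joint
import Vale.Agent.P366.H745.CH.Mink

/-! Foliated initial data: if the bound is an equality, the boundary is a round sphere. -/

open MeasureTheory Metric Filter Topology Set
open scoped ContDiff ENNReal

noncomputable section
namespace Vale.Agent.P366.CF

open Vale.Agent.P366 (pd E flux fderiv_eq_sum_pd)
open Vale.Agent.P366.H353.N
open Vale.Agent.P366.Kerr (NullCone Psi IsCut)
open Vale.Agent.P366.KSN (Y dts sg Ms OO mem_OO)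
open Vale.Agent.P366.Convex (IsSupport ray)
open Vale.Agent.P366.CH (supC supH)

variable {n : ℕ} {h : E n → ℝ} {nu Z : Fin n → E n → ℝ} {W : E n → ℝ} {D D' : Stmt.Exterior n}
  {x y z : E n} {s m : ℝ} {P v : Fin n → ℝ}

/-- in the case of equality the Minkowski inequality is an equality -/
theorem mink_CFE [Fact (3 ≤ n)] (hL : IsFol h nu W D) {B : ℝ} {X : Fin n → E n → ℝ}
    (hX : ∀ i y, 0 ≤ D.F y → ContDiffAt ℝ ∞ (X i) y)
    (hlim : Tendsto (flux X) atTop (𝓝 (((n : ℝ) - 1) * om n * B)))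
    (hb : ∀ x : E n, ‖x‖ = 1 → mcl nu (ray h x 0) / 2 ≤ ∑ i, X i (ray h x 0) * x i)
    (hpos : ∀ y, 0 < D.F y → 0 ≤ ∑ i, pd i (X i) y)
    (hle : B ≤ 1 / 2 * (SI (fun x => dts (supC hL.sup).H ((supC hL.sup).U x) x) / om n) ^
      (((n : ℝ) - 2) / ((n : ℝ) - 1))) :
    SI (fun x => sg (supC hL.sup).H ((supC hL.sup).U x) x) / (2 * ((n : ℝ) - 1) * om n) ≤
      1 / 2 * (SI (fun x => dts (supC hL.sup).H ((supC hL.sup).U x) x) / om n) ^
        (((n : ℝ) - 2) / ((n : ℝ) - 1)) := by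
  have hn : (3 : ℝ) ≤ (n : ℝ) := by exact_mod_cast Fact.out (p := 3 ≤ n)
  have hom : 0 < om n := om_pos
  obtain ⟨R, hR⟩ := D.dom.2.2.2
  have hst := KSN.stokes_le (supC hL.sup) (R0 := R) (Z := X)
    (fun y hy => (mem_iff hL).mp (hR y hy).le)
    (fun i x s hx hs => (hX i _ (mem_Y hL hx hs)).of_le (by exact_mod_cast le_top))
    (fun x s hx hs => hpos _ (F_pos hL hx hs)) hlim
  have h2 := bdr_le hL hX hb
  have hc : 0 < 2 * ((n : ℝ) - 1) * om n := by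
    have : 0 < (n : ℝ) - 1 := by linarith
    positivity
  refine le_trans ?_ hle
  rw [div_le_iff₀ hc]
  have e : B * (2 * ((n : ℝ) - 1) * om n) = 2 * (((n : ℝ) - 1) * om n * B) := by ring
  rw [e]
  linarith

/-- the three facts about the flux field with the momentum -/
theorem facts_P [Fact (3 ≤ n)] (hL : IsFol h nu W D) (hAF : D.IsAF) (hT : D.Trapped)
    (hm : D.IsEnergy m) (hP : D.IsMomentum P) (hZ : ∀ i, Stmt.Smooth (Z i))
    (hZa : ∃ a : ℝ, (n : ℝ) / 2 - 1 < a ∧ ∀ i, Stmt.BigO a fun x => Z i x - v i)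
    (hS : ∀ x, Stmt.len x = 1 → ∑ i, ∑ j, Stmt.momT D.g D.K (ray h x 0) i j * x i *
      Z j (ray h x 0) ≤ 0)
    (hin : ∀ x, 0 < D.F x → √(1 + W x) * (∑ j, Z j x * Stmt.mom D.g D.K j x +
      GraphClass.piDer D.g D.K Z x) ≤ 2 * den nu W D.g D.K x) :
    Tendsto (flux (XY nu W D.g D.K Z)) atTop
      (𝓝 (((n : ℝ) - 1) * om n * (m - 1 / 2 * ∑ j, v j * P j))) ∧
    (∀ x : E n, ‖x‖ = 1 → mcl nu (ray h x 0) / 2 ≤
      ∑ i, XY nu W D.g D.K Z i (ray h x 0) * x i) ∧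
    ∀ y, 0 < D.F y → 0 ≤ ∑ i, pd i (XY nu W D.g D.K Z i) y := by
  obtain ⟨a, ha, hZa⟩ := hZa
  refine ⟨?_, ?_, ?_⟩
  · have h1 := (flux_XF hL hAF hm).sub ((flux_QZ_aux hL hAF hP hZ ha hZa).const_mul (1 / 2))
    have e : ((n : ℝ) - 1) * om n * (m - 1 / 2 * ∑ j, v j * P j) =
        ((n : ℝ) - 1) * om n * m - 1 / 2 * (((n : ℝ) - 1) * om n * ∑ j, v j * P j) := by ring
    rw [e]
    obtain ⟨R, hR⟩ := D.dom.2.2.2
    refine h1.congr' ?_
    filter_upwards [eventually_gt_atTop R, eventually_gt_atTop 0] with r hr hr0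
    have hy : ∀ y : E n, ‖y‖ = r → 0 ≤ D.F y := fun y hy => (hR y (by
      show R < ‖y‖
      rw [hy]
      exact hr)).le
    exact (flux_half hr0 (fun i y h1 => (XF_smooth hL (hy y h1) i).continuousAt)
      fun i y h1 => (QZ_cd hL hZ (hy y h1) i).continuousAt).symm
  · intro x hx
    have h1 := bdr_XF hL hT hx
    have h2 := QZ_nor (Z := Z) hL hx
    have h3 : (∑ k, ∑ j, Stmt.momT D.g D.K (ray h x 0) k j * x k * Z j (ray h x 0)) /
        √(1 + W (ray h x 0)) ≤ 0 := div_nonpos_of_nonpos_of_nonneg (hS x hx) (Real.sqrt_nonneg _)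
    have e : ∑ i, XY nu W D.g D.K Z i (ray h x 0) * x i =
        ∑ i, XF nu W D.K i (ray h x 0) * x i - 1 / 2 * ∑ i, QZ W D.g D.K Z i (ray h x 0) * x i := by
      rw [Finset.mul_sum, ← Finset.sum_sub_distrib]
      exact Finset.sum_congr rfl fun i _ => by unfold XY; ring
    rw [e, h2]
    linarith
  · intro y hy
    rw [div_XY hL hZ hy]
    have h1 := hin y hy
    have e : ∑ j, Stmt.mom D.g D.K j y * Z j y = ∑ j, Z j y * Stmt.mom D.g D.K j y :=
      Finset.sum_congr rfl fun j _ => mul_comm _ _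
    rw [e]
    linarith

/-- the Minkowski inequality is an equality if the bound is -/
theorem mink_of_eq (hn : 3 ≤ n) (hO : IsCut D' D) (hAF : D.IsAF)
    (hT : D'.Trapped) (hm : D.IsEnergy m) (hL : IsFol h nu W D')
    (hZ : ∀ i, Stmt.Smooth (Z i))
    (hZa : ∃ a : ℝ, (n : ℝ) / 2 - 1 < a ∧ ∀ i, Stmt.BigO a fun x => Z i x - v i)
    (hS : ∀ x, Stmt.len x = 1 → ∑ i, ∑ j, Stmt.momT D'.g D'.K (ray h x 0) i j * x i *
      Z j (ray h x 0) ≤ 0)
    (hin : ∀ x, 0 < D'.F x → √(1 + W x) * (∑ j, Z j x * Stmt.mom D'.g D'.K j x +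
      GraphClass.piDer D'.g D'.K Z x) ≤ 2 * den nu W D'.g D'.K x)
    (hP : D.IsMomentum P ∨ ∀ i x, Z i x = 0)
    (he : 1 / 2 * ((D.area D'.F).toReal / Stmt.omega n) ^ (((n : ℝ) - 2) / (n - 1)) =
      m - 1 / 2 * ∑ j, v j * P j) (h3 : Fact (3 ≤ n)) :
    SI (fun x => sg (supC hL.sup).H ((supC hL.sup).U x) x) / (2 * ((n : ℝ) - 1) * om n) ≤
      1 / 2 * (SI (fun x => dts (supC hL.sup).H ((supC hL.sup).U x) x) / om n) ^
        (((n : ℝ) - 2) / ((n : ℝ) - 1)) := by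
  have hAF' := KSR.cut_AF hO hAF
  have hm' := KSR.cut_energy hO hm
  obtain ⟨-, -, -, -, h6⟩ := area_cutCF hL hO
  have e : ∀ x : ℝ, 1 / 2 * x = x / 2 := fun x => by ring
  have hle : m - 1 / 2 * ∑ j, v j * P j ≤
      1 / 2 * (SI (fun x => dts (supC hL.sup).H ((supC hL.sup).U x) x) / om n) ^
        (((n : ℝ) - 2) / ((n : ℝ) - 1)) := by
    rw [← he, e ((_ : ℝ) ^ _)]
    exact h6
  rcases hP with hP | hZ0
  · obtain ⟨f1, f2, f3⟩ := facts_P hL hAF' hT hm' (KSR.cut_momentum hO hP) hZ hZa hS hin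
    exact mink_CFE hL (XY_cd hL hZ) f1 f2 f3 hle
  · obtain ⟨a, ha, hZa'⟩ := hZa
    have hv : ∀ i, v i = 0 := fun i => H745C.y_zero hn ha hZa' hZ0 i
    simp only [hv, zero_mul, Finset.sum_const_zero, mul_zero, sub_zero] at hle
    refine mink_CFE hL (X := XF nu W D'.K) (fun i y hy => XF_smooth hL hy i)
      (flux_XF hL hAF' hm') (fun x hx => bdr_XF hL hT hx) (fun y hy => ?_) hle
    have h9 := hin y hy
    have h10 : ∑ j, Z j y * Stmt.mom D'.g D'.K j y = 0 :=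
      Finset.sum_eq_zero fun j _ => by rw [hZ0, zero_mul]
    rw [h10, piDer_zero hZ0, add_zero, mul_zero] at h9
    rw [div_XFb hL hy]
    linarith

end Vale.Agent.P366.CF
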