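import Vale.Agent.P366.Stmt

/-! The open ball in terms of its support function. -/

open MeasureTheory Metric

noncomputable section
namespace Vale.Agent.H222J

open Vale.Agent.P366.Stmt

variable {n : ℕ}

lemma inner_sum' (x z : E n) : inner ℝ x z = ∑ i, x i * z i := by
  rw [PiLp.inner_apply]
  exact Finset.sum_congr rfl fun i _ => by simp [mul_comm]

/-- the open ball in terms of its support function -/
theorem ball_iff (hn : 1 ≤ n) {r : ℝ} (hr : 0 < r) (c z : E n) :
    (∀ x : E n, len x = 1 → ∑ i, x i * z i < r + ∑ i, c i * x i) ↔ len (z - c) < r := by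
  have e : ∀ x : E n, (∑ i, x i * z i < r + ∑ i, c i * x i) ↔ inner ℝ x (z - c) < r := by
    intro x
    rw [inner_sub_right, inner_sum', inner_sum']
    have : ∑ i, c i * x i = ∑ i, x i * c i := Finset.sum_congr rfl fun i _ => mul_comm _ _
    rw [this]
    constructor <;> intro h <;> linarith
  simp only [e]
  constructor
  · intro h
    by_cases h0 : z - c = 0
    · rw [h0]
      show ‖(0 : E n)‖ < r
      rw [norm_zero]
      exact hr
    · have hp : 0 < ‖z - c‖ := norm_pos_iff.2 h0
      have h1 := h (‖z - c‖⁻¹ • (z - c)) (by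
        show ‖‖z - c‖⁻¹ • (z - c)‖ = 1
        rw [norm_smul, norm_inv, norm_norm, inv_mul_cancel₀ hp.ne'])
      rw [real_inner_smul_left, real_inner_self_eq_norm_sq] at h1
      show ‖z - c‖ < r
      have e2 : ‖z - c‖⁻¹ * ‖z - c‖ ^ 2 = ‖z - c‖ := by
        field_simp
      rwa [e2] at h1
  · intro h x hx
    have h1 := real_inner_le_norm x (z - c)
    have hx' : ‖x‖ = 1 := hx
    rw [hx', one_mul] at h1
    exact lt_of_le_of_lt h1 h

end Vale.Agent.H222J
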