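import Vale.Agent.P366.H222.CF.Ray
import Vale.Agent.P366.CF.Div
import Vale.Agent.P366.CF.FluxZ
import Vale.Agent.P366.H208.CF.Kpart
import Vale.Agent.P366.H353.CF.BdrF
import Vale.Agent.P366.H353.CF.DivZ
import Vale.Agent.P366.H707.CF.MainE

/-! Foliated initial data: the bound with the momentum. -/

open MeasureTheory Metric Filter Topology Set
open scoped ContDiff ENNReal

noncomputable section
namespace Vale.Agent.P366.CF

open Vale.Agent.P366 (pd E flux fderiv_eq_sum_pd)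
open Vale.Agent.P366.H353.N
open Vale.Agent.P366.Kerr (NullCone Psi IsCut)
open Vale.Agent.P366.KSN (Y dts sg Ms OO mem_OO)
open Vale.Agent.P366.Convex (IsSupport ray)
open Vale.Agent.P366.CH (supC)

variable {n : ℕ} {h : E n → ℝ} {nu Z : Fin n → E n → ℝ} {W : E n → ℝ} {D : Stmt.Exterior n}
  {x y z : E n} {s m : ℝ} {P v : Fin n → ℝ}

/-- the inverse metric on `ν` -/
lemma nu_up [Fact (3 ≤ n)] (hL : IsFol h nu W D) (hy : 0 ≤ D.F y) (k : Fin n) :
    ∑ i, nu i y * Stmt.up D.g i k y = nu k y / (1 + W y) := by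
  have hp := one_W_pos hL hy
  have h1 : ∀ i, ∑ l, nu l y * D.g y l i = (1 + W y) * nu i y := by
    intro i
    have hu := hL.unit y hy
    have e : ∀ l, nu l y * D.g y l i = (if l = i then nu l y else 0) +
        W y * nu i y * nu l y ^ 2 := fun l => by
      rw [hL.met y hy]
      split_ifs <;> ring
    simp only [e, Finset.sum_add_distrib, Finset.sum_ite_eq', Finset.mem_univ, if_true,
      ← Finset.mul_sum, hu]
    ring
  have hdet : IsUnit (Stmt.mat D.g y).det := (D.pos y hy).det_pos.ne'.isUnit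
  have h2 : ∀ l, ∑ i, D.g y l i * Stmt.up D.g i k y = if l = k then 1 else 0 := by
    intro l
    have h3 := congrFun (congrFun (Matrix.mul_nonsing_inv (Stmt.mat D.g y) hdet) l) k
    rw [Matrix.mul_apply, Matrix.one_apply] at h3
    exact h3
  have h3 : (1 + W y) * ∑ i, nu i y * Stmt.up D.g i k y = nu k y := by
    calc (1 + W y) * ∑ i, nu i y * Stmt.up D.g i k y =
        ∑ i, (∑ l, nu l y * D.g y l i) * Stmt.up D.g i k y := by
          rw [Finset.mul_sum]
          exact Finset.sum_congr rfl fun i _ => by rw [h1 i]; ring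
      _ = ∑ l, nu l y * ∑ i, D.g y l i * Stmt.up D.g i k y := by
          simp only [Finset.mul_sum, Finset.sum_mul]
          rw [Finset.sum_comm]
          exact Finset.sum_congr rfl fun l _ => Finset.sum_congr rfl fun i _ => by ring
      _ = _ := by
          simp only [h2, mul_ite, mul_one, mul_zero, Finset.sum_ite_eq', Finset.mem_univ, if_true]
  rw [eq_div_iff hp.ne', mul_comm]
  exact h3

/-- the normal component of the momentum field on the boundary -/
lemma QZ_nor [Fact (3 ≤ n)] (hL : IsFol h nu W D) (hx : ‖x‖ = 1) :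
    ∑ i, QZ W D.g D.K Z i (ray h x 0) * x i = (∑ k, ∑ j, Stmt.momT D.g D.K (ray h x 0) k j *
      x k * Z j (ray h x 0)) / √(1 + W (ray h x 0)) := by
  have h0 : 0 ≤ D.F (ray h x 0) := mem_ray hL hx le_rfl
  have hp := one_W_pos hL h0
  have hs := Real.sqrt_pos.2 hp
  have hss := Real.mul_self_sqrt hp.le
  have hb : ∀ i, nu i (ray h x 0) = x i := hL.bdr x hx
  have h1 := fun k => nu_up hL h0 k
  simp only [hb] at h1
  unfold QZ
  have e : ∀ (θ : Fin n → ℝ) (u : Fin n → Fin n → ℝ) (c : ℝ),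
      ∑ i, c * (∑ k, u i k * θ k) * x i = c * ∑ k, (∑ i, x i * u i k) * θ k := by
    intro θ u c
    simp only [Finset.mul_sum, Finset.sum_mul]
    rw [Finset.sum_comm]
    exact Finset.sum_congr rfl fun k _ => Finset.sum_congr rfl fun i _ => by ring
  rw [e]
  simp only [h1]
  rw [eq_div_iff hs.ne']
  have e2 : ∑ k, x k / (1 + W (ray h x 0)) *
      ∑ j, Stmt.momT D.g D.K (ray h x 0) k j * Z j (ray h x 0) =
      (∑ k, ∑ j, Stmt.momT D.g D.K (ray h x 0) k j * x k * Z j (ray h x 0)) /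
        (1 + W (ray h x 0)) := by
    rw [Finset.sum_div]
    refine Finset.sum_congr rfl fun k _ => ?_
    rw [Finset.mul_sum, Finset.sum_div]
    exact Finset.sum_congr rfl fun j _ => by ring
  rw [e2]
  obtain ⟨r, hr⟩ : ∃ r, r = √(1 + W (ray h x 0)) := ⟨_, rfl⟩
  rw [← hr] at hs hss ⊢
  rw [← hss]
  field_simp

/-- the divergence of the flux field -/
lemma div_XFb (hL : IsFol h nu W D) (hy : 0 < D.F y) :
    ∑ i, pd i (XF nu W D.K i) y = den nu W D.g D.K y := div_XF_of hL hy (div_XK hL hy)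

/-- the flux field with the momentum -/
def XY (nu : Fin n → E n → ℝ) (W : E n → ℝ) (g K : Stmt.Field n) (Z : Fin n → E n → ℝ)
    (i : Fin n) (y : E n) : ℝ := XF nu W K i y - 1 / 2 * QZ W g K Z i y

lemma XY_cd (hL : IsFol h nu W D) (hZ : ∀ j, Stmt.Smooth (Z j)) (i : Fin n) (y : E n)
    (hy : 0 ≤ D.F y) : ContDiffAt ℝ ∞ (XY nu W D.g D.K Z i) y :=
  (XF_smooth hL hy i).sub (contDiffAt_const.mul (QZ_cd hL hZ hy i))

lemma div_XY (hL : IsFol h nu W D) (hZ : ∀ j, Stmt.Smooth (Z j)) (hy : 0 < D.F y) :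
    ∑ i, pd i (XY nu W D.g D.K Z i) y = den nu W D.g D.K y - 1 / 2 * (√(1 + W y) *
      (∑ j, Stmt.mom D.g D.K j y * Z j y + GraphClass.piDer D.g D.K Z y)) := by
  have e : ∀ i, pd i (XY nu W D.g D.K Z i) y = pd i (XF nu W D.K i) y -
      1 / 2 * pd i (QZ W D.g D.K Z i) y := by
    intro i
    have h1 : HasFDerivAt (XF nu W D.K i) (fderiv ℝ (XF nu W D.K i) y) y :=
      ((XF_smooth hL hy.le i).differentiableAt (by simp)).hasFDerivAt
    have h2 : HasFDerivAt (QZ W D.g D.K Z i) (fderiv ℝ (QZ W D.g D.K Z i) y) y :=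
      ((QZ_cd hL hZ hy.le i).differentiableAt (by simp)).hasFDerivAt
    have h3 : HasFDerivAt (XY nu W D.g D.K Z i) (fderiv ℝ (XF nu W D.K i) y -
        (1 / 2 : ℝ) • fderiv ℝ (QZ W D.g D.K Z i) y) y := h1.sub (h2.const_mul (1 / 2))
    show fderiv ℝ (XY nu W D.g D.K Z i) y _ = _
    rw [h3.fderiv]
    rfl
  simp only [e, Finset.sum_sub_distrib, ← Finset.mul_sum]
  rw [div_XFb hL hy, div_QZ hL hZ hy]

lemma flux_half {X X' : Fin n → E n → ℝ} {r : ℝ} (hr : 0 < r)
    (hX : ∀ i, ∀ y : E n, ‖y‖ = r → ContinuousAt (X i) y)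
    (hX' : ∀ i, ∀ y : E n, ‖y‖ = r → ContinuousAt (X' i) y) :
    flux (fun i y => X i y - 1 / 2 * X' i y) r = flux X r - 1 / 2 * flux X' r := by
  rw [H474.W.flux_sub (W := X) (W' := fun i y => 1 / 2 * X' i y) hr hX fun i y hy =>
    (hX' i y hy).const_mul _]
  congr 1
  rw [H474.W.flux_SI, H474.W.flux_SI, mul_left_comm (1 / 2 : ℝ)]
  congr 1
  rw [← SI_cmul]
  refine SI_congr fun x _ => ?_
  rw [Finset.mul_sum]
  exact Finset.sum_congr rfl fun i _ => by ring

/-- **The bound with the momentum.** -/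
theorem bound_P [Fact (3 ≤ n)] (hL : IsFol h nu W D) (hAF : D.IsAF) (hT : D.Trapped)
    (hm : D.IsEnergy m) (hP : D.IsMomentum P) (hZ : ∀ i, Stmt.Smooth (Z i))
    (hZa : ∃ a : ℝ, (n : ℝ) / 2 - 1 < a ∧ ∀ i, Stmt.BigO a fun x => Z i x - v i)
    (hS : ∀ x, Stmt.len x = 1 → ∑ i, ∑ j, Stmt.momT D.g D.K (ray h x 0) i j * x i *
      Z j (ray h x 0) ≤ 0)
    (hin : ∀ x, 0 < D.F x → √(1 + W x) * (∑ j, Z j x * Stmt.mom D.g D.K j x +
      GraphClass.piDer D.g D.K Z x) ≤ 2 * den nu W D.g D.K x) :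
    1 / 2 * (SI (fun x => dts (supC hL.sup).H ((supC hL.sup).U x) x) / om n) ^
      (((n : ℝ) - 2) / ((n : ℝ) - 1)) ≤ m - 1 / 2 * ∑ j, v j * P j := by
  obtain ⟨a, ha, hZa⟩ := hZa
  refine bound_CF hL (X := XY nu W D.g D.K Z) (XY_cd hL hZ) ?_ ?_ ?_
  · have h1 := (flux_XF hL hAF hm).sub ((flux_QZ_aux hL hAF hP hZ ha hZa).const_mul (1 / 2))
    have e : ((n : ℝ) - 1) * om n * (m - 1 / 2 * ∑ j, v j * P j) =
        ((n : ℝ) - 1) * om n * m - 1 / 2 * (((n : ℝ) - 1) * om n * ∑ j, v j * P j) := by ring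
    rw [e]
    obtain ⟨R, hR⟩ := D.dom.2.2.2
    refine h1.congr' ?_
    filter_upwards [eventually_gt_atTop R, eventually_gt_atTop 0] with r hr hr0
    have hy : ∀ y : E n, ‖y‖ = r → 0 ≤ D.F y := fun y hy => (hR y (by
      show R < ‖y‖
      rw [hy]
      exact hr)).le
    exact (flux_half hr0 (fun i y h1 => (XF_smooth hL (hy y h1) i).continuousAt)
      fun i y h1 => (QZ_cd hL hZ (hy y h1) i).continuousAt).symm
  · intro x hx
    have h1 := bdr_XF hL hT hx
    have h2 := QZ_nor (Z := Z) hL hx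
    have h3 : (∑ k, ∑ j, Stmt.momT D.g D.K (ray h x 0) k j * x k * Z j (ray h x 0)) /
        √(1 + W (ray h x 0)) ≤ 0 := div_nonpos_of_nonpos_of_nonneg (hS x hx) (Real.sqrt_nonneg _)
    have e : ∑ i, XY nu W D.g D.K Z i (ray h x 0) * x i =
        ∑ i, XF nu W D.K i (ray h x 0) * x i - 1 / 2 * ∑ i, QZ W D.g D.K Z i (ray h x 0) * x i := by
      rw [Finset.mul_sum, ← Finset.sum_sub_distrib]
      exact Finset.sum_congr rfl fun i _ => by unfold XY; ring
    rw [e, h2]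
    linarith
  · intro y hy
    rw [div_XY hL hZ hy]
    have h1 := hin y hy
    have e : ∑ j, Stmt.mom D.g D.K j y * Z j y = ∑ j, Z j y * Stmt.mom D.g D.K j y :=
      Finset.sum_congr rfl fun j _ => mul_comm _ _
    rw [e]
    linarith

end Vale.Agent.P366.CF
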