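import Vale.Agent.P366.H222.CF.Part1
import Vale.Agent.P366.H707.CF.ClauseY
import Vale.Agent.P366.H745.CH.Part2

/-! Foliated initial data: the form used in the hand-in. -/

open MeasureTheory Metric Filter Topology Set
open scoped ContDiff ENNReal

noncomputable section
namespace Vale.Agent.H222J

open Vale.Agent.P366.CF
open Vale.Agent.P366.Stmt
open Vale.Agent.P366.Kerr (IsCut IsSchwSlice)
open Vale.Agent.P366.Convex (IsSupport ray)
open Vale.Agent.P366.GraphClass (piDer)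

variable {n : ℕ}

/-- The theorem for foliated data. -/
theorem part1 (hn : 3 ≤ n) {D D' : Exterior n} (hO : IsCut D' D) (hAF : D.IsAF)
    (hD : D'.DEC) (hT : D'.Trapped) {m : ℝ} (hm : D.IsEnergy m) :
    ∀ (h : E n → ℝ) (nu : Fin n → E n → ℝ) (W : E n → ℝ), IsFol h nu W D' →
      (∀ (Y : Fin n → E n → ℝ) (y P : Fin n → ℝ), (∀ i, Smooth (Y i)) →
        (∃ a : ℝ, (n : ℝ) / 2 - 1 < a ∧ ∀ i, BigO a fun x => Y i x - y i) →
        (∀ x, len x = 1 → ∑ i, ∑ j, momT D'.g D'.K (ray h x 0) i j * x i *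
          Y j (ray h x 0) ≤ 0) →
        (∀ x, 0 < D'.F x → √(1 + W x) * (∑ j, Y j x * mom D'.g D'.K j x +
          piDer D'.g D'.K Y x) ≤ 2 * den nu W D'.g D'.K x) →
        (D.IsMomentum P ∨ ∀ i x, Y i x = 0) →
        (D.Amin ≤ D.area D'.F ∧ D.area D'.F ≠ ⊤ ∧
          1 / 2 * (D.Amin.toReal / omega n) ^ (((n : ℝ) - 2) / (n - 1)) ≤
            1 / 2 * ((D.area D'.F).toReal / omega n) ^ (((n : ℝ) - 2) / (n - 1)) ∧
          1 / 2 * ((D.area D'.F).toReal / omega n) ^ (((n : ℝ) - 2) / (n - 1)) ≤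
            m - 1 / 2 * ∑ j, y j * P j) ∧
        ((∀ j, m * y j = 2 * P j) → ∑ j, y j ^ 2 < 4 → √(∑ j, P j ^ 2) < m ∧
          1 / 2 * ((D.area D'.F).toReal / omega n) ^ (((n : ℝ) - 2) / (n - 1)) ≤
            √(m ^ 2 - ∑ j, P j ^ 2))) ∧
      (∀ x, 0 < D'.F x → |trL nu D'.K x| ≤ mcl nu x / √(1 + W x) →
        quad nu W D'.K x ≤ den nu W D'.g D'.K x) ∧
      ((∀ x, 0 < D'.F x → RigidAt nu W D'.g D'.K x) →
        1 / 2 * ((D.area D'.F).toReal / omega n) ^ (((n : ℝ) - 2) / (n - 1)) = m →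
        ∃ c r₀ f, IsSchwSlice c r₀ f D') := by
  have : Fact (3 ≤ n) := ⟨hn⟩
  intro h nu W hL
  refine ⟨fun Y y P hY hYa hS hin hP => ?_, fun _ hx hh => quad_le_den hL hD hx.le hh,
    fun hst he => equal_CF hn hO hAF hD hT hm hL hst he⟩
  rcases hP with hP | hY0
  · exact ineqP_CF hn hO hAF hT hm hP hL hY hYa hS hin
  · obtain ⟨a, ha, hYa'⟩ := hYa
    have hy : ∀ i, y i = 0 := fun i => Vale.Agent.H745C.y_zero hn ha hYa' hY0 i
    have e : ∀ x : ℝ, 1 / 2 * x = x / 2 := fun x => by ring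
    obtain ⟨h1, h2, h3, h5, h6⟩ := area_cutCF hL hO
    have h7 := (clauseY hn hO hL hT hAF hm hY ⟨a, ha, hYa'⟩ hS hin).1 hY0
    have h8 : 1 / 2 * ((D.area D'.F).toReal / omega n) ^ (((n : ℝ) - 2) / (n - 1)) ≤ m := by
      rw [e]
      exact h7
    refine ⟨⟨h1, h2, ?_, ?_⟩, fun ha _ => ?_⟩
    · rw [e, e]
      exact h5
    · simp only [hy, zero_mul, Finset.sum_const_zero, mul_zero, sub_zero]
      exact h8
    · have hP0 : ∀ j, P j = 0 := fun j => by
        have := ha j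
        rw [hy j] at this
        linarith
      have hm0 : 0 < m := by
        have := main_CF hL hO (flux_XF hL (Vale.Agent.P366.KSR.cut_AF hO hAF) (Vale.Agent.P366.KSR.cut_energy hO hm))
          (fun x hx => bdr_XF hL hT hx) (fun z hz => ?_)
        · exact this.2.2.1
        · have h9 := hin z hz
          have h10 : ∑ j, Y j z * mom D'.g D'.K j z = 0 :=
            Finset.sum_eq_zero fun j _ => by rw [hY0, zero_mul]
          rw [h10, piDer_zero hY0, add_zero, mul_zero] at h9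
          rw [div_XFb hL hz]
          linarith
      simp only [hP0, ne_eq, OfNat.ofNat_ne_zero, not_false_eq_true, zero_pow,
        Finset.sum_const_zero, Real.sqrt_zero, sub_zero, Real.sqrt_sq hm0.le]
      exact ⟨hm0, h8⟩

end Vale.Agent.H222J
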