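import Vale.Agent.P366.H222.CF.Ball
import Vale.Agent.P366.H353.CG.Round

/-! Foliated initial data: the form used in the hand-in, with the rigidity of the boundary. -/

open MeasureTheory Metric Filter Topology Set
open scoped ContDiff ENNReal

noncomputable section
namespace Vale.Agent.H222J

open Vale.Agent.P366.CF
open Vale.Agent.P366.Stmt
open Vale.Agent.P366.Kerr (IsCut IsSchwSlice)
open Vale.Agent.P366.Convex (IsSupport ray)
open Vale.Agent.P366.GraphClass (piDer)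

variable {n : ℕ}

/-- The theorem for foliated data. -/
theorem part1E (hn : 3 ≤ n) {D D' : Exterior n} (hO : IsCut D' D) (hAF : D.IsAF)
    (hD : D'.DEC) (hT : D'.Trapped) {m : ℝ} (hm : D.IsEnergy m) :
    ∀ (h : E n → ℝ) (nu : Fin n → E n → ℝ) (W : E n → ℝ), IsFol h nu W D' →
      (∀ (Y : Fin n → E n → ℝ) (y P : Fin n → ℝ), (∀ i, Smooth (Y i)) →
        (∃ a : ℝ, (n : ℝ) / 2 - 1 < a ∧ ∀ i, BigO a fun x => Y i x - y i) →
        (∀ x, len x = 1 → ∑ i, ∑ j, momT D'.g D'.K (ray h x 0) i j * x i *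
          Y j (ray h x 0) ≤ 0) →
        (∀ x, 0 < D'.F x → √(1 + W x) * (∑ j, Y j x * mom D'.g D'.K j x +
          piDer D'.g D'.K Y x) ≤ 2 * den nu W D'.g D'.K x) →
        (D.IsMomentum P ∨ ∀ i x, Y i x = 0) →
        (D.Amin ≤ D.area D'.F ∧ D.area D'.F ≠ ⊤ ∧
          1 / 2 * (D.Amin.toReal / omega n) ^ (((n : ℝ) - 2) / (n - 1)) ≤
            1 / 2 * ((D.area D'.F).toReal / omega n) ^ (((n : ℝ) - 2) / (n - 1)) ∧
          1 / 2 * ((D.area D'.F).toReal / omega n) ^ (((n : ℝ) - 2) / (n - 1)) ≤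
            m - 1 / 2 * ∑ j, y j * P j) ∧
        (1 / 2 * ((D.area D'.F).toReal / omega n) ^ (((n : ℝ) - 2) / (n - 1)) =
            m - 1 / 2 * ∑ j, y j * P j →
          ∃ (c : E n) (r : ℝ), 0 < r ∧ ∀ z, D'.F z < 0 ↔ len (z - c) < r) ∧
        ((∀ j, m * y j = 2 * P j) → ∑ j, y j ^ 2 < 4 → √(∑ j, P j ^ 2) < m ∧
          1 / 2 * ((D.area D'.F).toReal / omega n) ^ (((n : ℝ) - 2) / (n - 1)) ≤
            √(m ^ 2 - ∑ j, P j ^ 2))) ∧
      (∀ x, 0 < D'.F x → |trL nu D'.K x| ≤ mcl nu x / √(1 + W x) →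
        quad nu W D'.K x ≤ den nu W D'.g D'.K x) ∧
      ((∀ x, 0 < D'.F x → RigidAt nu W D'.g D'.K x) →
        1 / 2 * ((D.area D'.F).toReal / omega n) ^ (((n : ℝ) - 2) / (n - 1)) = m →
        ∃ c r₀ f, IsSchwSlice c r₀ f D') := by
  have h3 : Fact (3 ≤ n) := ⟨hn⟩
  intro h nu W hL
  obtain ⟨p1, p2, p3⟩ := part1 hn hO hAF hD hT hm h nu W hL
  refine ⟨fun Y y P hY hYa hS hin hP => ?_, p2, p3⟩
  obtain ⟨q1, q2⟩ := p1 Y y P hY hYa hS hin hP
  refine ⟨q1, fun he => ?_, q2⟩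
  obtain ⟨c, r, hr, hc⟩ := Vale.Agent.H353G.sup_ball_pos hL.sup
    (mink_of_eq hn hO hAF hT hm hL hY hYa hS hin hP he h3)
  exact ⟨c, r, hr, fun z => (hL.dom z).trans (Vale.Agent.H353G.ball_iff hr hc)⟩

end Vale.Agent.H222J
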