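import Vale.Agent.P366.H222.CF.Joint
import Vale.Agent.P366.H745.G.Part2G

/-! The spacetime Penrose inequality (P366, Q1) with the energy and the momentum, in every space
dimension `n ≥ 3` and without any symmetry, for two classes of initial data `(g, K)` outside
strictly convex bodies; in both the tensor `K` is subject to inequalities only.

Part 1: the metric is `g = δ + W ν ⊗ ν`, where `ν` is the Euclidean unit normal of a foliation by
hypersurfaces of positive mean curvature and `W` is any function, so that the leaves carry their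
Euclidean metrics. Here the case of equality is included.

Part 2: the metric is `g = δ + F df ⊗ df` outside several convex bodies, where `f` and `F` are any
functions with `f` constant on each component of the boundary; `F = 1` are the graphs in Euclidean
space, `F = - 1` the spacelike graphs in Minkowski space. -/

open scoped ENNReal

noncomputable section
namespace Vale.Agent.H222JG

open Vale.Agent.P366.Stmt
open Vale.Agent.P366.Convex (IsSupport ray)
open Vale.Agent.P366.CF (IsFol RigidAt den quad trL mcl)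
open Vale.Agent.P366.Kerr (IsCut IsSchwSlice)
open Vale.Agent.P366.GraphClass (piDer)
open Vale.Agent.P366.FG (lvlMetric wsq cf StarF)

/-- The Penrose inequality for data outside convex bodies. -/
theorem result {n : ℕ} (hn : 3 ≤ n) {D D' : Exterior n} (hO : IsCut D' D) (hAF : D.IsAF)
    (hD : D'.DEC) (hT : D'.Trapped) {m : ℝ} (hm : D.IsEnergy m) :
    (∀ (h : E n → ℝ) (nu : Fin n → E n → ℝ) (W : E n → ℝ), IsFol h nu W D' →
      (∀ (Y : Fin n → E n → ℝ) (y P : Fin n → ℝ), (∀ i, Smooth (Y i)) →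
        (∃ a : ℝ, (n : ℝ) / 2 - 1 < a ∧ ∀ i, BigO a fun x => Y i x - y i) →
        (∀ x, len x = 1 → ∑ i, ∑ j, momT D'.g D'.K (ray h x 0) i j * x i *
          Y j (ray h x 0) ≤ 0) →
        (∀ x, 0 < D'.F x → √(1 + W x) * (∑ j, Y j x * mom D'.g D'.K j x +
          piDer D'.g D'.K Y x) ≤ 2 * den nu W D'.g D'.K x) →
        (D.IsMomentum P ∨ ∀ i x, Y i x = 0) →
        (D.Amin ≤ D.area D'.F ∧ D.area D'.F ≠ ⊤ ∧
          1 / 2 * (D.Amin.toReal / omega n) ^ (((n : ℝ) - 2) / (n - 1)) ≤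
            1 / 2 * ((D.area D'.F).toReal / omega n) ^ (((n : ℝ) - 2) / (n - 1)) ∧
          1 / 2 * ((D.area D'.F).toReal / omega n) ^ (((n : ℝ) - 2) / (n - 1)) ≤
            m - 1 / 2 * ∑ j, y j * P j) ∧
        ((∀ j, m * y j = 2 * P j) → ∑ j, y j ^ 2 < 4 → √(∑ j, P j ^ 2) < m ∧
          1 / 2 * ((D.area D'.F).toReal / omega n) ^ (((n : ℝ) - 2) / (n - 1)) ≤
            √(m ^ 2 - ∑ j, P j ^ 2))) ∧
      (∀ x, 0 < D'.F x → |trL nu D'.K x| ≤ mcl nu x / √(1 + W x) →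
        quad nu W D'.K x ≤ den nu W D'.g D'.K x) ∧
      ((∀ x, 0 < D'.F x → RigidAt nu W D'.g D'.K x) →
        1 / 2 * ((D.area D'.F).toReal / omega n) ^ (((n : ℝ) - 2) / (n - 1)) = m →
        ∃ c r₀ f, IsSchwSlice c r₀ f D')) ∧
    (∀ (N : ℕ) (h : Fin N → E n → ℝ) (f F u : E n → ℝ) (Y : Fin n → E n → ℝ) (y P : Fin n → ℝ),
      (∀ k, IsSupport (h k)) →
      (∀ j k, j ≠ k → ∀ z : E n, ¬ ((∀ x, len x = 1 → ∑ i, x i * z i ≤ h j x) ∧
        ∀ x, len x = 1 → ∑ i, x i * z i ≤ h k x)) →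
      (∀ z, D'.F z < 0 ↔ ∃ k, ∀ x, len x = 1 → ∑ i, x i * z i < h k x) →
      Smooth f → Smooth F → Smooth u → (∀ i, Smooth (Y i)) →
      (∀ k x z, len x = 1 → len z = 1 → f (ray (h k) x 0) = f (ray (h k) z 0)) →
      (∀ x, 0 ≤ D'.F x → ∀ i j, D'.g x i j = lvlMetric f F x i j) →
      (∀ k x, len x = 1 → ∃ l : ℝ,
        (1 + u (ray (h k) x 0) * ∑ i, pd i f (ray (h k) x 0) * x i) ^ 2 ≤ l ∧
        ∀ i, Y i (ray (h k) x 0) = -(l * (x i / wsq f F (ray (h k) x 0)))) →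
      (∃ a : ℝ, (n : ℝ) / 2 - 1 < a ∧
        ∀ i, (BigO a fun x => Y i x - y i) ∧ BigO a fun x => u x * pd i f x) →
      (∃ b : ℝ, (n : ℝ) - 1 < b ∧ ∀ i, BigO b fun x => u x ^ 2 * cf f i x) →
      (∀ x, 0 < D'.F x → StarF D'.g D'.K f F u Y x) →
      (D.IsMomentum P ∨ ∀ i x, Y i x = 0) →
      (D.Amin ≤ D.area D'.F ∧ D.area D'.F ≠ ⊤ ∧
        1 / 2 * (D.Amin.toReal / omega n) ^ (((n : ℝ) - 2) / (n - 1)) ≤
          1 / 2 * ((D.area D'.F).toReal / omega n) ^ (((n : ℝ) - 2) / (n - 1)) ∧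
        1 / 2 * ((D.area D'.F).toReal / omega n) ^ (((n : ℝ) - 2) / (n - 1)) ≤
          m - 1 / 2 * ∑ j, y j * P j) ∧
      (2 ≤ N → 1 / 2 * ((D.area D'.F).toReal / omega n) ^ (((n : ℝ) - 2) / (n - 1)) <
        m - 1 / 2 * ∑ j, y j * P j) ∧
      ((∀ j, m * y j = 2 * P j) → ∑ j, y j ^ 2 < 4 → √(∑ j, P j ^ 2) < m ∧
        1 / 2 * ((D.area D'.F).toReal / omega n) ^ (((n : ℝ) - 2) / (n - 1)) ≤
          √(m ^ 2 - ∑ j, P j ^ 2))) :=
  ⟨Vale.Agent.H222J.part1 hn hO hAF hD hT hm, Vale.Agent.H745C.part2G hn hO hAF hT hm⟩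

end Vale.Agent.H222JG
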