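import Vale.Agent.P366.H222.CF.Bound
import Vale.Agent.P366.CF.Par
import Vale.Agent.P366.H745.CH.Final4

/-! Foliated initial data: the theorem. -/

open MeasureTheory Metric Filter Topology Set
open scoped ContDiff ENNReal

noncomputable section
namespace Vale.Agent.P366.CF

open Vale.Agent.P366 (pd E flux fderiv_eq_sum_pd)
open Vale.Agent.P366.H353.N
open Vale.Agent.P366.Kerr (NullCone Psi IsCut IsSchwSlice)
open Vale.Agent.P366.KSN (Y dts sg Ms OO mem_OO)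
open Vale.Agent.P366.Convex (IsSupport ray)
open Vale.Agent.P366.CH (supC)

variable {n : ℕ} {h : E n → ℝ} {nu Z : Fin n → E n → ℝ} {W : E n → ℝ} {D D' : Stmt.Exterior n}
  {x y z : E n} {s m : ℝ} {P v : Fin n → ℝ}

/-- The Penrose inequality with the momentum. -/
theorem ineqP_CF (hn : 3 ≤ n) (hO : IsCut D' D) (hAF : D.IsAF) (hT : D'.Trapped)
    (hm : D.IsEnergy m) (hP : D.IsMomentum P) (hL : IsFol h nu W D')
    (hZ : ∀ i, Stmt.Smooth (Z i))
    (hZa : ∃ a : ℝ, (n : ℝ) / 2 - 1 < a ∧ ∀ i, Stmt.BigO a fun x => Z i x - v i)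
    (hS : ∀ x, Stmt.len x = 1 → ∑ i, ∑ j, Stmt.momT D'.g D'.K (ray h x 0) i j * x i *
      Z j (ray h x 0) ≤ 0)
    (hin : ∀ x, 0 < D'.F x → √(1 + W x) * (∑ j, Z j x * Stmt.mom D'.g D'.K j x +
      GraphClass.piDer D'.g D'.K Z x) ≤ 2 * den nu W D'.g D'.K x) :
    (D.Amin ≤ D.area D'.F ∧ D.area D'.F ≠ ⊤ ∧
      1 / 2 * (D.Amin.toReal / Stmt.omega n) ^ (((n : ℝ) - 2) / (n - 1)) ≤
        1 / 2 * ((D.area D'.F).toReal / Stmt.omega n) ^ (((n : ℝ) - 2) / (n - 1)) ∧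
      1 / 2 * ((D.area D'.F).toReal / Stmt.omega n) ^ (((n : ℝ) - 2) / (n - 1)) ≤
        m - 1 / 2 * ∑ j, v j * P j) ∧
    ((∀ j, m * v j = 2 * P j) → ∑ j, v j ^ 2 < 4 → √(∑ j, P j ^ 2) < m ∧
      1 / 2 * ((D.area D'.F).toReal / Stmt.omega n) ^ (((n : ℝ) - 2) / (n - 1)) ≤
        √(m ^ 2 - ∑ j, P j ^ 2)) := by
  have : Fact (3 ≤ n) := ⟨hn⟩
  have hAF' := KSR.cut_AF hO hAF
  have hm' := KSR.cut_energy hO hm
  have hP' := KSR.cut_momentum hO hP
  have hb := bound_P hL hAF' hT hm' hP' hZ hZa hS hin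
  obtain ⟨h1, h2, h3, h5, h6⟩ := area_cutCF hL hO
  have e : ∀ x : ℝ, 1 / 2 * x = x / 2 := fun x => by ring
  refine ⟨⟨h1, h2, ?_, ?_⟩, fun ha hv => ?_⟩
  · rw [e, e]
    exact h5
  · rw [e ((_ : ℝ) ^ _)]
    exact h6.trans hb
  · have h7 : (∑ j, v j * P j) / 2 = 1 / 2 * ∑ j, v j * P j := by ring
    obtain ⟨q1, q2⟩ := H745C.momentum_alg4 h3 (by rw [h7]; exact hb) ha hv
    refine ⟨q1, ?_⟩
    rw [e]
    exact h6.trans q2

/-- The case of equality. -/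
theorem equal_CF (hn : 3 ≤ n) (hO : IsCut D' D) (hAF : D.IsAF) (hD : D'.DEC) (hT : D'.Trapped)
    (hm : D.IsEnergy m) (hL : IsFol h nu W D')
    (hst : ∀ y, 0 < D'.F y → RigidAt nu W D'.g D'.K y)
    (he : 1 / 2 * ((D.area D'.F).toReal / Stmt.omega n) ^ (((n : ℝ) - 2) / (n - 1)) = m) :
    ∃ c r₀ f, IsSchwSlice c r₀ f D' := by
  have : Fact (3 ≤ n) := ⟨hn⟩
  have hAF' := KSR.cut_AF hO hAF
  have hm' := KSR.cut_energy hO hm
  have he' : ((D.area D'.F).toReal / Stmt.omega n) ^ (((n : ℝ) - 2) / ((n : ℝ) - 1)) / 2 = m := by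
    rw [← he]
    ring
  have hle : ∀ y, 0 < D'.F y → LeafAt nu W D'.g D'.K y := by
    intro y hy
    rcases hst y hy with ⟨h1, h2⟩ | h
    · refine Or.inl ⟨h1.le, ?_⟩
      rcases h2 with h2 | h2
      · exact h2.le
      · unfold quad
        simp only [(h2 _).1, (h2 _).2.1, (h2 _).2.2]
        simp
    · exact Or.inr h.le
  have hpos : ∀ y, 0 < D'.F y → 0 ≤ ∑ i, pd i (XF nu W D'.K i) y := fun y hy => by
    rw [div_XFb hL hy]
    exact den_of hL hD hy.le (hle y hy)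
  have hz := (main_CFE hL hO (flux_XF hL hAF' hm') (fun x hx => bdr_XF hL hT hx) hpos).2 he'
  have h0 : ∀ y, 0 < D'.F y → |trL nu D'.K y| < mcl nu y / √(1 + W y) ∧
      ∀ i, alf nu W D'.K i y = 0 ∧ acc nu W i y = 0 ∧ cur nu i y = 0 := by
    intro y hy
    have hd : den nu W D'.g D'.K y = 0 := by rw [← div_XFb hL hy, hz y hy.le]
    rcases hst y hy with ⟨h1, h2⟩ | h
    · refine ⟨h1, ?_⟩
      rcases h2 with h2 | h2
      · exact absurd hd (den_pos hL hD hy.le h1.le h2).ne'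
      · exact h2
    · exact absurd hd h.ne'
  have hp : Parallel h nu := fun x s hx hs i =>
    congrArg (fun v : E n => v i) (par_of_cur hL (fun y hy i => ((h0 y hy).2 i).2.2) hx hs)
  exact rigid_CF hn hO hL hp hD hT hle hAF hm
    (fun y hy => Or.inl ⟨(h0 y hy).1, Or.inl fun i => ((h0 y hy).2 i).1⟩) he'

end Vale.Agent.P366.CF
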