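import Vale.Agent.P366.CF.Bd
import Vale.Agent.P366.CF.DefsR

/-! Foliated initial data: if the orthogonal lines of the leaves are straight, the leaves are the
parallel surfaces of the body. -/

open MeasureTheory Metric Filter Topology Set
open scoped ContDiff ENNReal

noncomputable section
namespace Vale.Agent.P366.CF

open Vale.Agent.P366 (pd E flux fderiv_eq_sum_pd)
open Vale.Agent.P366.H353.N
open Vale.Agent.P366.Kerr (NullCone Psi)
open Vale.Agent.P366.KSN (Y dts sg Ms OO mem_OO)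
open Vale.Agent.P366.Convex (IsSupport ray)
open Vale.Agent.P366.CH (supC supH bp mc Bodies bodies_one sup_sm sup_hom sup_hs_x supH_hs)

variable {n : ℕ} {h : E n → ℝ} {nu : Fin n → E n → ℝ} {W : E n → ℝ} {D : Stmt.Exterior n}
  {x y z : E n} {s : ℝ}

/-- the vector field `ν` -/
def Nv (nu : Fin n → E n → ℝ) (y : E n) : E n := WithLp.toLp 2 fun i => nu i y

lemma Nv_cd (hL : IsFol h nu W D) (hy : 0 ≤ D.F y) : ContDiffAt ℝ ∞ (Nv nu) y :=
  contDiffAt_euclidean.2 fun i => hL.smN y hy i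

lemma mem_ray [Fact (3 ≤ n)] (hL : IsFol h nu W D) (hx : ‖x‖ = 1) (hs : 0 ≤ s) :
    0 ≤ D.F (ray h x s) := by
  by_contra hcon
  have h1 := (hL.dom _).1 (not_le.1 hcon)
  have h2 := (CH.ray_out_le hL.sup (ray h x s)).2 ⟨x, s, hx, hs, rfl⟩
  obtain ⟨z, hz, h3⟩ := h2
  exact absurd (h1 z hz) (not_lt.2 h3)

/-- `∂_ν ν` is the derivative of the vector field `ν` in the direction `ν` -/
lemma cur_eq (hL : IsFol h nu W D) (hy : 0 ≤ D.F y) (i : Fin n) :
    (fderiv ℝ (Nv nu) y (Nv nu y)) i = cur nu i y := by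
  have h1 : HasFDerivAt (Nv nu) (fderiv ℝ (Nv nu) y) y :=
    ((Nv_cd hL hy).differentiableAt (by simp)).hasFDerivAt
  have h4 : HasFDerivAt (nu i) ((EuclideanSpace.proj i : E n →L[ℝ] ℝ).comp
      (fderiv ℝ (Nv nu) y)) y := (EuclideanSpace.proj i : E n →L[ℝ] ℝ).hasFDerivAt.comp y h1
  have h3 : fderiv ℝ (nu i) y (Nv nu y) = (fderiv ℝ (Nv nu) y (Nv nu y)) i := by
    rw [h4.fderiv]
    rfl
  rw [← h3, fderiv_eq_sum_pd]
  unfold cur
  exact Finset.sum_congr rfl fun j _ => by
    rw [spd_eq (hL.smN y hy i)]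
    show (Nv nu y) j * pd j (nu i) y = _
    rfl

/-- if `∂_ν ν = 0`, the leaves are the parallel surfaces of the body -/
theorem par_of_cur [Fact (3 ≤ n)] (hL : IsFol h nu W D)
    (h0 : ∀ y, 0 < D.F y → ∀ i, cur nu i y = 0) (hx : ‖x‖ = 1) (hs : 0 ≤ s) :
    Nv nu (ray h x s) = x := by
  have hF : ∀ t, 0 ≤ t → 0 ≤ D.F (ray h x t) := fun t ht => mem_ray hL hx ht
  -- the vector field is constant along itself
  have hN : ∀ y, 0 ≤ D.F y → fderiv ℝ (Nv nu) y (Nv nu y) = 0 := by
    intro y hy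
    ext i
    rw [cur_eq hL hy i]
    show _ = (0 : ℝ)
    exact ext_eq hL hy (cur_cdB (hL.smN y hy) i).continuousAt (H := fun _ => 0)
      continuousAt_const fun z hz => h0 z hz i
  have hr : ∀ t, HasDerivAt (fun t => ray h x t) x t := by
    intro t
    have e : (fun t : ℝ => ray h x t) = fun t : ℝ =>
        (WithLp.toLp 2 fun i => Stmt.pd i h x : E n) + t • x := by
      funext t
      ext i
      simp [ray]
    rw [e]
    simpa using ((hasDerivAt_id t).smul_const x).const_add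
      (WithLp.toLp 2 fun i => Stmt.pd i h x : E n)
  have hc : Continuous fun t => ray h x t :=
    continuous_iff_continuousAt.2 fun t => (hr t).continuousAt
  have hv : ∀ t, 0 ≤ t → HasDerivAt (fun t => Nv nu (ray h x t) - x)
      (fderiv ℝ (Nv nu) (ray h x t) x) t := by
    intro t ht
    have h1 : HasFDerivAt (Nv nu) (fderiv ℝ (Nv nu) (ray h x t)) (ray h x t) :=
      ((Nv_cd hL (hF t ht)).differentiableAt (by simp)).hasFDerivAt
    exact (h1.comp_hasDerivAt t (hr t)).sub_const x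
  have hb : ContinuousOn (fun t => fderiv ℝ (Nv nu) (ray h x t)) (Icc 0 s) := by
    intro t ht
    have h1 : ContDiffAt ℝ ∞ (fderiv ℝ (Nv nu)) (ray h x t) :=
      (Nv_cd hL (hF t ht.1)).fderiv_right (by simp)
    exact (h1.continuousAt.comp hc.continuousAt).continuousWithinAt
  obtain ⟨B, hB⟩ := isCompact_Icc.exists_bound_of_continuousOn hb
  have h1 := norm_le_gronwallBound_of_norm_deriv_right_le (δ := 0) (K := B) (ε := 0)
    (f := fun t => Nv nu (ray h x t) - x) (f' := fun t => fderiv ℝ (Nv nu) (ray h x t) x)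
    (a := 0) (b := s) (fun t ht => (hv t ht.1).continuousAt.continuousWithinAt)
    (fun t ht => (hv t ht.1).hasDerivWithinAt) (by
      have e : Nv nu (ray h x 0) = x := by
        ext i
        exact hL.bdr x hx i
      rw [e, sub_self, norm_zero]) (fun t ht => by
      have e : fderiv ℝ (Nv nu) (ray h x t) x =
          -fderiv ℝ (Nv nu) (ray h x t) (Nv nu (ray h x t) - x) := by
        rw [map_sub, hN _ (hF t ht.1), zero_sub, neg_neg]
      rw [e, norm_neg, add_zero]
      exact (ContinuousLinearMap.le_opNorm _ _).trans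
        (mul_le_mul_of_nonneg_right (hB t ⟨ht.1, ht.2.le⟩) (norm_nonneg _)))
    s ⟨hs, le_rfl⟩
  rw [gronwallBound_ε0_δ0] at h1
  exact sub_eq_zero.1 (norm_le_zero_iff.1 h1)

end Vale.Agent.P366.CF
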